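import Vale.Agent.Lib.P110.Lift

namespace Vale.Agent.Results.P110.A_group_delay

open Vale.Agent.Lib.P110

/-- For every `M ≥ 0` there are `ε > 0` and `N₀` such that every real Littlewood polynomial of
length `N ≥ N₀` which is `ε`-flat on the circle has a differentiable polar phase, and every
differentiable polar phase `β` has `β'` of total variation greater than `M N` on `[0, 2π]`. -/
theorem result (M : ℝ) (hM : 0 ≤ M) :
    ∃ ε : ℝ, 0 < ε ∧ ∃ N₀ : ℕ, ∀ N ≥ N₀, ∀ a : ℕ → ℝ, (∀ k < N, a k = 1 ∨ a k = -1) →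
      (∀ θ : ℝ, |‖circleValue a N θ‖ ^ 2 / N - 1| ≤ ε) →
      (∃ β : ℝ → ℝ, Differentiable ℝ β ∧ ∀ θ : ℝ, circleValue a N θ =
        (‖circleValue a N θ‖ : ℂ) * Complex.exp (Complex.I * (β θ : ℂ))) ∧
      ∀ β : ℝ → ℝ, Differentiable ℝ β →
        (∀ θ : ℝ, circleValue a N θ =
          (‖circleValue a N θ‖ : ℂ) * Complex.exp (Complex.I * (β θ : ℂ))) →
        ENNReal.ofReal (M * N) < eVariationOn (deriv β) (Set.Icc 0 (2 * Real.pi)) := by
  obtain ⟨ε, hε, N₀, h⟩ := no_flat M hM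
  refine ⟨min ε (1 / 2), by positivity, N₀, ?_⟩
  intro N hN a ha hflat
  constructor
  · apply exists_phase
    intro θ h0
    have h1 := hflat θ
    rw [h0, norm_zero] at h1
    have h2 : |(0 : ℝ) ^ 2 / N - 1| = 1 := by simp
    rw [h2] at h1
    have h3 := min_le_right ε (1 / 2 : ℝ)
    linarith
  · intro β hβ hpolar
    by_contra hcon
    exact h N hN a ha β hβ hpolar (fun θ => (hflat θ).trans (min_le_left _ _)) (not_lt.1 hcon)

end Vale.Agent.Results.P110.A_group_delay
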